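import Mathlib

/-! # P198: coarse interface for the boundary of a hyperbolic group

`G` a group, `Z` a compact metric space on which `G` acts (the Gromov boundary with a visual metric).
All the geometry used in the proof is packed in the structure `HB`. -/

namespace Vale.Agent.P198

open Set

/-- Gromov product at `1` computed from a length function -/
noncomputable def gp {G : Type} [Group G] (len : G → ℕ) (g h : G) : ℝ :=
  ((len g : ℝ) + len h - len (g⁻¹ * h)) / 2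

/-- coarse data: word length, hyperbolicity, boundary products `bp x g` = `(x|g)`, visual metric -/
structure HB (G Z : Type) [Group G] [MetricSpace Z] [MulAction G Z] where
  len : G → ℕ
  len_one : len 1 = 0
  len_inv : ∀ g, len g⁻¹ = len g
  len_mul : ∀ g h, len (g * h) ≤ len g + len h
  fin_ball : ∀ n, {g : G | len g ≤ n}.Finite
  split : ∀ g n, n ≤ len g → ∃ a b, g = a * b ∧ len a = n ∧ len b = len g - n
  /-- one constant for all additive errors -/
  D : ℝ
  one_le_D : 1 ≤ D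
  hyp : ∀ a b c, min (gp len a b) (gp len b c) - D ≤ gp len a c
  bp : Z → G → ℝ
  bp_nonneg : ∀ x g, 0 ≤ bp x g
  bp_le : ∀ x g, bp x g ≤ len g
  bp1 : ∀ x g h, min (bp x g) (gp len g h) - D ≤ bp x h
  bp2 : ∀ x g h, min (bp x g) (bp x h) - D ≤ gp len g h
  bp_smul : ∀ x g h, |bp (g • x) (g * h) - (bp x h - bp x g⁻¹ - gp len h g⁻¹ + len g)| ≤ D
  exists_g : ∀ x n, ∃ g, len g = n ∧ (n : ℝ) - D ≤ bp x g
  exists_x : ∀ g, ∃ x, (len g : ℝ) - D ≤ bp x g
  /-- visual metric with parameter `θ` -/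
  θ : ℝ
  θ_pos : 0 < θ
  θ_lt : θ < 1
  K : ℝ
  one_le_K : 1 ≤ K
  dist_le : ∀ x y g, dist x y ≤ K * θ ^ (min (bp x g) (bp y g))
  le_dist : ∀ x y, x ≠ y → ∃ g, K⁻¹ * θ ^ (len g : ℝ) ≤ dist x y ∧
    (len g : ℝ) - D ≤ bp x g ∧ (len g : ℝ) - D ≤ bp y g

variable {G Z : Type} [Group G] [MetricSpace Z] [MulAction G Z]

namespace HB

/-- the shadow of `g` with parameter `C` -/
def sh (H : HB G Z) (C : ℝ) (g : G) : Set Z := {x | (H.len g : ℝ) - C ≤ H.bp x g}

/-- the cell of `g` -/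
def cell (H : HB G Z) (g : G) : Set Z := H.sh H.D g

/-- the sphere of radius `k` in the group -/
noncomputable def Sp (H : HB G Z) (k : ℕ) : Finset G :=
  ((H.fin_ball k).subset (fun g (hg : H.len g = k) => hg.le) : {g : G | H.len g = k}.Finite).toFinset

theorem mem_Sp (H : HB G Z) {k : ℕ} {g : G} : g ∈ H.Sp k ↔ H.len g = k := by
  simp [Sp]

end HB

/-- a continuum: nonempty compact connected set -/
def IsCont (K : Set Z) : Prop := IsCompact K ∧ IsConnected K

/-- linear local connectivity in terms of shadows -/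
def HB.LC (H : HB G Z) : Prop :=
  ∀ C : ℝ, ∃ L : ℝ, ∀ g : G, ∀ x ∈ H.sh C g, ∀ y ∈ H.sh C g,
    ∃ K : Set Z, IsCont K ∧ x ∈ K ∧ y ∈ K ∧ K ⊆ H.sh L g

open Classical in
/-- the `ρ`-length of a set at level `k` -/
noncomputable def HB.Ln (H : HB G Z) (k : ℕ) (ρ : G → ℝ) (K : Set Z) : ℝ :=
  ∑ g ∈ H.Sp k, if (H.cell g ∩ K).Nonempty then ρ g else 0

/-- admissible weights of a family of sets at level `k` -/
def HB.Adm (H : HB G Z) (k : ℕ) (F : Set (Set Z)) (ρ : G → ℝ) : Prop :=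
  (∀ g, 0 ≤ ρ g) ∧ ∀ K ∈ F, 1 ≤ H.Ln k ρ K

/-- total mass of `ρ ^ 2` -/
noncomputable def HB.mass (H : HB G Z) (k : ℕ) (ρ : G → ℝ) : ℝ := ∑ g ∈ H.Sp k, ρ g ^ 2

/-- combinatorial `2`-modulus at level `k` is at least `M` -/
def HB.ModGE (H : HB G Z) (k : ℕ) (F : Set (Set Z)) (M : ℝ) : Prop :=
  ∀ ρ, H.Adm k F ρ → M ≤ H.mass k ρ

/-- combinatorial `2`-modulus at level `k` is at most `M` (attained) -/
def HB.ModLE (H : HB G Z) (k : ℕ) (F : Set (Set Z)) (M : ℝ) : Prop :=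
  ∃ ρ, H.Adm k F ρ ∧ H.mass k ρ ≤ M

/-- combinatorial `2`-modulus of the family `F` at level `k` -/
noncomputable def HB.Mod (H : HB G Z) (k : ℕ) (F : Set (Set Z)) : ℝ :=
  sInf {s | ∃ ρ, H.Adm k F ρ ∧ s = H.mass k ρ}

/-- continua with two points at distance at least `d` -/
def bigCont (Z : Type) [MetricSpace Z] (d : ℝ) : Set (Set Z) :=
  {K | IsCont K ∧ ∃ x ∈ K, ∃ y ∈ K, d ≤ dist x y}

end Vale.Agent.P198
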