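import Vale.Agent.P198.Defs

/-! # P198: further definitions and the interface between the teams -/

namespace Vale.Agent.P198

open Set Filter Topology

variable {G Z : Type} [Group G] [MetricSpace Z] [MulAction G Z]

/-- the extended rectangle `[-1,2] × [0,1]` -/
def Rc : Set (ℝ × ℝ) := Icc (-1) 2 ×ˢ Icc 0 1

/-- the inner rectangle `[0,1] × [0,1]` -/
def Rc0 : Set (ℝ × ℝ) := Icc 0 1 ×ˢ Icc 0 1

/-- the open extended rectangle -/
def RcI : Set (ℝ × ℝ) := Ioo (-1) 2 ×ˢ Ioo 0 1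

/-- continua in the inner rectangle of the chart `e` that join the bottom side to the top side -/
def Gam (e : ℝ × ℝ → Z) : Set (Set Z) :=
  {K | IsCont K ∧ K ⊆ e '' Rc0 ∧ (∃ p ∈ Rc0, p.2 = 0 ∧ e p ∈ K) ∧ (∃ p ∈ Rc0, p.2 = 1 ∧ e p ∈ K)}

/-- oscillation of `u` on `A` -/
noncomputable def osc (u : Z → ℝ) (A : Set Z) : ℝ := Metric.diam (u '' A)

/-- every point is the centre of a chart defined on the whole plane -/
def LocPlane (Z : Type) [TopologicalSpace Z] : Prop :=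
  ∀ x : Z, ∃ e : ℝ × ℝ → Z, IsOpenEmbedding e ∧ e (0, 0) = x

open Classical in
/-- energy at level `k`, computed on `C`-shadows of those `g` whose `L`-shadow lies in `U` -/
noncomputable def HB.En (H : HB G Z) (U : Set Z) (C L : ℝ) (k : ℕ) (u : Z → ℝ) : ℝ :=
  ∑ g ∈ (H.Sp k).filter (fun g => H.sh L g ⊆ U), osc u (H.sh C g) ^ 2

/-- a good potential at level `k` on the rectangle of the chart `e`, with energy at most `B` -/
structure LvlPot (H : HB G Z) (e : ℝ × ℝ → Z) (C L : ℝ) (k : ℕ) (B : ℝ) (u : Z → ℝ) : Prop where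
  cont : ContinuousOn u (e '' Rc)
  mem : ∀ z, u z ∈ Icc (0 : ℝ) 1
  left : ∀ p ∈ Rc, p.1 ≤ -(1 / 2) → u (e p) = 0
  right : ∀ p ∈ Rc, 3 / 2 ≤ p.1 → u (e p) = 1
  level : ∀ c ∈ Ioo (0 : ℝ) 1, IsCont {z | z ∈ e '' Rc ∧ u z = c}
  level_bot : ∀ c ∈ Ioo (0 : ℝ) 1, ∃ p ∈ Rc, p.2 = 0 ∧ u (e p) = c
  energy : H.En (e '' RcI) C L k u ≤ B

/-- output of the limit construction (input of the leaf lemmas) -/
structure LimPot (H : HB G Z) where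
  e : ℝ × ℝ → Z
  emb : IsOpenEmbedding e
  ω : Ultrafilter ℕ
  m : ℕ → ℝ
  m_tendsto : Tendsto m ω atTop
  L0 : ℝ
  B0 : ℝ
  uk : ℕ → Z → ℝ
  lvl : ∀ᶠ k in (ω : Filter ℕ), LvlPot H e H.D L0 k (B0 / m k) (uk k)
  u : Z → ℝ
  mem : ∀ z, u z ∈ Icc (0 : ℝ) 1
  cont : ContinuousOn u (e '' RcI)
  unif : ∀ Q : Set Z, IsCompact Q → Q ⊆ e '' RcI → TendstoUniformlyOn uk u ω Q
  energy : ∀ C : ℝ, ∃ L B : ℝ, ∀ k, H.En (e '' RcI) C L k u ≤ B

/-- the dominating continua -/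
def LimPot.Dom {H : HB G Z} (P : LimPot H) : Set (Set Z) :=
  {K | IsCont K ∧ K.Nontrivial ∧ ∀ r > 0, ∃ c > 0, ∀ᶠ k in (P.ω : Filter ℕ),
    H.ModGE k {K' | IsCont K' ∧ Metric.hausdorffDist K K' < r} (c * P.m k)}

/-- output of the modulus part (input of the counting part) -/
structure Pot (H : HB G Z) where
  U : Set Z
  isOpen : IsOpen U
  compl_ne : (Uᶜ).Nonempty
  Q : Set Z
  Q_cont : IsCont Q
  Q_sub : Q ⊆ U
  u : Z → ℝ
  mem : ∀ z, u z ∈ Icc (0 : ℝ) 1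
  cont : ContinuousOn u U
  nonconst : ∃ x ∈ Q, ∃ y ∈ Q, u x < u y
  energy : ∀ C : ℝ, ∃ L B : ℝ, ∀ k, H.En U C L k u ≤ B
  T : Set ℝ
  T_count : T.Countable
  leaf : ∀ y ∈ U, u y ∉ T → ∃ K : Set Z, IsCont K ∧ y ∈ K ∧ (K ∩ Uᶜ).Nonempty ∧
    ∀ z ∈ K, z ∈ U → u z = u y
  dich : ∀ g₁ g₂ : G, (∀ z : Z, g₁ • z ∈ U ∨ g₂ • z ∈ U) → ∀ y : Z, g₁ • y ∈ U → g₂ • y ∈ U →
    u (g₁ • y) ∉ T → (∃ z : Z, g₂ • z ∉ U ∧ u (g₁ • z) = u (g₁ • y)) ∨
      (∃ z : Z, g₁ • z ∉ U ∧ u (g₂ • z) = u (g₂ • y))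

/-! ## Statements of the blocks -/

/-- TEAM C front: unbounded moduli give a limit potential -/
def StmtFront : Prop :=
  ∀ (G Z : Type) [Group G] [MetricSpace Z] [MulAction G Z] [CompactSpace Z] [ConnectedSpace Z]
    (H : HB G Z), H.LC → LocPlane Z → (∀ g : G, Continuous fun z : Z => g • z) →
    ∃ d₀ > 0, ∀ d, 0 < d → d ≤ d₀ → (¬ ∃ B : ℝ, ∀ k, H.Mod k (bigCont Z d) ≤ B) →
      Nonempty (LimPot H)

/-- TEAM C back: leaves and dichotomy -/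
def StmtBack : Prop :=
  ∀ (G Z : Type) [Group G] [MetricSpace Z] [MulAction G Z] [CompactSpace Z] [ConnectedSpace Z]
    (H : HB G Z), H.LC → LocPlane Z → (∀ g : G, Continuous fun z : Z => g • z) →
    LimPot H → Nonempty (Pot H)

/-- TEAM D: counting -/
def StmtCount : Prop :=
  ∀ (G Z : Type) [Group G] [MetricSpace Z] [MulAction G Z] [CompactSpace Z] [ConnectedSpace Z]
    (H : HB G Z), H.LC → (∀ g : G, Continuous fun z : Z => g • z) → Pot H → False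

open Classical in
theorem HB.Ln_one_le (H : HB G Z) (k : ℕ) {K : Set Z} (hK : K.Nonempty) :
    1 ≤ H.Ln k (fun _ => 1) K := by
  obtain ⟨x, hx⟩ := hK
  obtain ⟨g, hg, hgx⟩ := H.exists_g x k
  have hm : g ∈ H.Sp k := H.mem_Sp.2 hg
  have hc : (H.cell g ∩ K).Nonempty := ⟨x, by simpa [HB.cell, HB.sh, hg] using hgx, hx⟩
  unfold HB.Ln
  calc (1 : ℝ) = if (H.cell g ∩ K).Nonempty then (fun _ : G => (1 : ℝ)) g else 0 := by simp [hc]
    _ ≤ _ := Finset.single_le_sum (f := fun g => if (H.cell g ∩ K).Nonempty then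
        (fun _ : G => (1 : ℝ)) g else 0) (fun i _ => by split_ifs <;> norm_num) hm

theorem HB.Mod_mono (H : HB G Z) (k : ℕ) {F F' : Set (Set Z)} (h : F ⊆ F')
    (hne : ∀ K ∈ F', K.Nonempty) : H.Mod k F ≤ H.Mod k F' := by
  unfold HB.Mod
  refine csInf_le_csInf ⟨0, ?_⟩ ⟨_, fun _ => 1, ⟨fun _ => zero_le_one, fun K hK =>
    H.Ln_one_le k (hne K hK)⟩, rfl⟩ ?_
  · rintro s ⟨ρ, _, rfl⟩
    exact Finset.sum_nonneg fun g _ => sq_nonneg _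
  · rintro s ⟨ρ, hρ, rfl⟩
    exact ⟨ρ, ⟨hρ.1, fun K hK => hρ.2 K (h hK)⟩, rfl⟩

theorem T_of (h1 : StmtFront) (h2 : StmtBack) (h3 : StmtCount)
    {G Z : Type} [Group G] [MetricSpace Z] [MulAction G Z] [CompactSpace Z] [ConnectedSpace Z]
    (H : HB G Z) (hLC : H.LC) (hZ : LocPlane Z) (hc : ∀ g : G, Continuous fun z : Z => g • z) :
    ∀ d > 0, ∃ B : ℝ, ∀ k, H.Mod k (bigCont Z d) ≤ B := by
  obtain ⟨d₀, hd₀, h⟩ := h1 G Z H hLC hZ hc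
  have key : ∀ d, 0 < d → d ≤ d₀ → ∃ B : ℝ, ∀ k, H.Mod k (bigCont Z d) ≤ B := by
    intro d hd hdd
    by_contra hb
    obtain ⟨P⟩ := h d hd hdd hb
    obtain ⟨P'⟩ := h2 G Z H hLC hZ hc P
    exact h3 G Z H hLC hc P'
  intro d hd
  obtain ⟨B, hB⟩ := key (min d d₀) (lt_min hd hd₀) (min_le_right _ _)
  refine ⟨B, fun k => le_trans (H.Mod_mono k ?_ ?_) (hB k)⟩
  · rintro K ⟨hK, x, hx, y, hy, hxy⟩
    exact ⟨hK, x, hx, y, hy, (min_le_left _ _).trans hxy⟩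
  · rintro K ⟨hK, -⟩
    exact hK.2.nonempty

end Vale.Agent.P198
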