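import Vale.Agent.P198.Defs2

/-! # P198: statements of the topological blocks (TEAM B)
File for block `Bn`: `Vale/Agent/P198/Top/Bn.lean`, theorem name `Vale.Agent.P198.bn : StmtBn`. -/

namespace Vale.Agent.P198

open Set Filter Topology

/-- B1: the rectangle is unicoherent (lift a circle valued map) -/
def StmtB1 : Prop := ∀ A B : Set (ℝ × ℝ), IsClosed A → IsClosed B → IsPreconnected A →
  IsPreconnected B → A ∪ B = Rc → IsPreconnected (A ∩ B)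

/-- B2: crossing lemma -/
def StmtB2 : Prop := ∀ K K' : Set (ℝ × ℝ), IsCompact K → IsPreconnected K → K ⊆ Rc0 →
  (∃ p ∈ K, p.2 = 0) → (∃ p ∈ K, p.2 = 1) →
  IsCompact K' → IsPreconnected K' → K' ⊆ Rc → (∃ p ∈ K', p.1 ≤ 0) → (∃ p ∈ K', 1 ≤ p.1) →
  (K ∩ K').Nonempty

/-- B3: boundary bumping -/
def StmtB3 : Prop := ∀ (X : Type) [TopologicalSpace X] [T2Space X] (K F : Set X),
  IsCompact K → IsPreconnected K → IsClosed F → ∀ x ∈ K, x ∈ F → ¬ K ⊆ F →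
  ∃ C ⊆ K ∩ F, IsCompact C ∧ IsConnected C ∧ x ∈ C ∧ (C ∩ frontier F).Nonempty

/-- B3': a continuum that meets both level sets of a continuous function contains a continuum
between the levels that meets both (annulus form of boundary bumping) -/
def StmtB3' : Prop := ∀ (X : Type) [TopologicalSpace X] [T2Space X] (K : Set X) (f : X → ℝ),
  IsCompact K → IsPreconnected K → ContinuousOn f K → ∀ a b : ℝ, a < b →
  (∃ x ∈ K, f x ≤ a) → (∃ x ∈ K, b ≤ f x) →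
  ∃ C ⊆ K, IsCompact C ∧ IsConnected C ∧ (∀ x ∈ C, f x ∈ Icc a b) ∧
    (∃ x ∈ C, f x = a) ∧ (∃ x ∈ C, f x = b)

/-- B4: monotonisation -/
def StmtB4 : Prop := ∀ (v : ℝ × ℝ → ℝ), ContinuousOn v Rc → (∀ p ∈ Rc, v p ∈ Icc (0 : ℝ) 1) →
  ∀ a b : ℝ, -1 ≤ a → b ≤ 2 → (∀ p ∈ Rc, p.1 ≤ a → v p = 0) → (∀ p ∈ Rc, b ≤ p.1 → v p = 1) →
  ∃ w : ℝ × ℝ → ℝ, ContinuousOn w Rc ∧ (∀ p ∈ Rc, w p ∈ Icc (0 : ℝ) 1) ∧
    (∀ p ∈ Rc, p.1 ≤ a → w p = 0) ∧ (∀ p ∈ Rc, b ≤ p.1 → w p = 1) ∧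
    (∀ c : ℝ, IsPreconnected {p | p ∈ Rc ∧ w p ≤ c}) ∧
    (∀ c : ℝ, IsPreconnected {p | p ∈ Rc ∧ c ≤ w p}) ∧
    (∀ κ ⊆ Rc, IsCompact κ → IsConnected κ → ∀ x ∈ κ, ∀ y ∈ κ,
      |w x - w y| ≤ Metric.diam (v '' κ))

/-- B5: levels of a monotone function are continua meeting the bottom side -/
def StmtB5 : Prop := ∀ (w : ℝ × ℝ → ℝ), ContinuousOn w Rc →
  (∀ c : ℝ, IsPreconnected {p | p ∈ Rc ∧ w p ≤ c}) →
  (∀ c : ℝ, IsPreconnected {p | p ∈ Rc ∧ c ≤ w p}) →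
  w (-1, 0) = 0 → w (2, 0) = 1 → ∀ c ∈ Ioo (0 : ℝ) 1,
  IsCompact {p | p ∈ Rc ∧ w p = c} ∧ IsConnected {p | p ∈ Rc ∧ w p = c} ∧
    ∃ p ∈ Rc, p.2 = 0 ∧ w p = c

/-- B6: finitely many charts such that every big continuum crosses one of them -/
def StmtB6 : Prop := ∀ (Z : Type) [MetricSpace Z] [CompactSpace Z], LocPlane Z → ∀ d > 0,
  ∃ (n : ℕ) (e : Fin n → ℝ × ℝ → Z), (∀ i, IsOpenEmbedding (e i)) ∧
    ∀ K ∈ bigCont Z d, ∃ i, ∃ K' ⊆ K, K' ∈ Gam (e i)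

/-- B7: Hausdorff limits of continua are continua -/
def StmtB7 : Prop := ∀ (Z : Type) [MetricSpace Z] [CompactSpace Z],
  IsClosed {K : TopologicalSpace.NonemptyCompacts Z | IsConnected (K : Set Z)}

/-- B8: the 2-sphere satisfies the hypotheses -/
def StmtB8 : Prop := LocPlane (Metric.sphere (0 : EuclideanSpace ℝ (Fin 3)) 1) ∧
  ConnectedSpace (Metric.sphere (0 : EuclideanSpace ℝ (Fin 3)) 1)

/-- B9: oscillation over a continuum covered by finitely many sets -/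
def StmtB9 : Prop := ∀ (Z ι : Type) [MetricSpace Z] (K : Set Z) (u : Z → ℝ) (s : Finset ι)
  (A : ι → Set Z), IsCont K → ContinuousOn u K → (∀ z, u z ∈ Icc (0 : ℝ) 1) →
  (∀ z ∈ K, ∃ i ∈ s, z ∈ A i) → osc u K ≤ ∑ i ∈ s, osc u (A i)

end Vale.Agent.P198
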