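import Vale.Agent.P198.Defs2

/-! # P198: statements of the modulus blocks (TEAM C)
File for block `Cn`: `Vale/Agent/P198/Mod/Cn.lean`, theorem name `Vale.Agent.P198.cn : StmtCn`
(blocks may assume the statements of TEAM B and of earlier blocks as hypotheses). -/

namespace Vale.Agent.P198

open Set Filter Topology

/-- C0: convex duality (nearest point of the convex hull of the indicator vectors to `0`) -/
def StmtC0 : Prop := ∀ (G Z : Type) [Group G] [MetricSpace Z] [MulAction G Z] (H : HB G Z)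
  (k : ℕ) (F : Set (Set Z)) (M : ℝ), 0 < M → H.ModGE k F M →
  ∃ η : G → ℝ, (∀ g, 0 ≤ η g) ∧ H.mass k η ≤ 1 / M ∧
    (∀ g ∈ H.Sp k, η g ≠ 0 → ∃ K ∈ F, (H.cell g ∩ K).Nonempty) ∧
    ∀ K' : Set Z, (∀ K ∈ F, (K ∩ K').Nonempty) → 1 ≤ H.Ln k η K'

/-- C1: quasi-invariance of the modulus under a fixed group element -/
def StmtC1 : Prop := ∀ (G Z : Type) [Group G] [MetricSpace Z] [MulAction G Z] (H : HB G Z)
  (g : G), ∃ B > 0, ∀ (k : ℕ) (F : Set (Set Z)) (M : ℝ), H.ModGE k F M →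
    H.ModGE k ((fun K : Set Z => (fun z => g • z) '' K) '' F) (M / B)

/-- local families: continua inside the `C`-shadow of `g` of size at least `c θ^|g|` -/
def HB.locFam {G Z : Type} [Group G] [MetricSpace Z] [MulAction G Z] (H : HB G Z) (C c : ℝ)
    (g : G) : Set (Set Z) :=
  {K | IsCont K ∧ K ⊆ H.sh C g ∧ ∃ x ∈ K, ∃ y ∈ K, c * H.θ ^ H.len g ≤ dist x y}

/-- all moduli up to level `k` are at most `M` -/
def HB.RecLE {G Z : Type} [Group G] [MetricSpace Z] [MulAction G Z] (H : HB G Z) (k : ℕ)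
    (d M : ℝ) : Prop := ∀ i ≤ k, H.Mod i (bigCont Z d) ≤ M

/-- C2: local families have modulus at most a constant times the record modulus (transport by
`g⁻¹` for `|g| = j`, then zoom in by `i₀` more levels to reach the threshold `d₀`) -/
def StmtC2 : Prop := ∀ (G Z : Type) [Group G] [MetricSpace Z] [MulAction G Z] [CompactSpace Z]
  (H : HB G Z), (∀ g : G, Continuous fun z : Z => g • z) →
  ∃ d₀ > 0, ∀ C c : ℝ, 0 < c → ∃ B > 0, ∃ i₀ : ℕ, ∀ (k : ℕ) (g : G) (M d : ℝ), 0 < M →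
    0 < d → d ≤ d₀ → H.len g + i₀ ≤ k → H.RecLE k d M → H.ModLE k (H.locFam C c g) (B * M)

/-- C3: potentials (Lemma 1) -/
def StmtC3 : Prop := ∀ (G Z : Type) [Group G] [MetricSpace Z] [MulAction G Z] [CompactSpace Z]
  (H : HB G Z), H.LC → ∀ e : ℝ × ℝ → Z, IsOpenEmbedding e →
  ∃ L B : ℝ, ∃ k₀ : ℕ, ∀ k ≥ k₀, ∀ M > 0, H.ModGE k (Gam e) M →
    ∃ u, LvlPot H e H.D L k (B / M) u

/-- C4: energy at coarser levels (Lemma 3). `d₀` is the one of C2. -/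
def StmtC4 : Prop := ∀ (G Z : Type) [Group G] [MetricSpace Z] [MulAction G Z] [CompactSpace Z]
  (H : HB G Z), H.LC → (∀ g : G, Continuous fun z : Z => g • z) →
  ∃ d₀ > 0, ∀ C L₀ : ℝ, ∃ L B : ℝ, ∃ i₀ : ℕ, ∀ (e : ℝ × ℝ → Z), IsOpenEmbedding e →
    ∀ (k j : ℕ) (u : Z → ℝ) (B' M d : ℝ), LvlPot H e H.D L₀ k B' u → 0 < M → 0 < d → d ≤ d₀ →
      H.RecLE k d M → j + i₀ ≤ k → H.En (e '' RcI) C L j u ≤ B * M * B'

/-- C4b: equicontinuity at record levels (Lemma 3, annuli) -/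
def StmtC4b : Prop := ∀ (G Z : Type) [Group G] [MetricSpace Z] [MulAction G Z] [CompactSpace Z]
  (H : HB G Z), H.LC → (∀ g : G, Continuous fun z : Z => g • z) →
  ∃ d₀ > 0, ∀ (L₀ A : ℝ) (e : ℝ × ℝ → Z), IsOpenEmbedding e → ∀ x ∈ e '' RcI, ∀ ε > 0,
    ∃ V ∈ 𝓝 x, ∃ k₀ : ℕ, ∀ k ≥ k₀, ∀ (u : Z → ℝ) (B' M d : ℝ),
      LvlPot H e H.D L₀ k B' u → 0 < M → 0 < d → d ≤ d₀ → H.RecLE k d M → M * B' ≤ A →
        osc u V ≤ ε

/-- C7: the limit potential is constant on dominating continua inside the open rectangle -/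
def StmtC7 : Prop := ∀ (G Z : Type) [Group G] [MetricSpace Z] [MulAction G Z] [CompactSpace Z]
  (H : HB G Z) (P : LimPot H), ∀ K ∈ P.Dom, K ⊆ P.e '' RcI → ∀ x ∈ K, ∀ y ∈ K, P.u x = P.u y

/-- C7b: dominating continua are permuted by the group -/
def StmtC7b : Prop := ∀ (G Z : Type) [Group G] [MetricSpace Z] [MulAction G Z] [CompactSpace Z]
  (H : HB G Z), (∀ g : G, Continuous fun z : Z => g • z) → ∀ (P : LimPot H) (g : G),
    ∀ K ∈ P.Dom, (fun z => g • z) '' K ∈ P.Dom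

/-- C7c: the dominating continua are closed under nondegenerate Hausdorff limits -/
def StmtC7c : Prop := ∀ (G Z : Type) [Group G] [MetricSpace Z] [MulAction G Z] [CompactSpace Z]
  (H : HB G Z) (P : LimPot H) (K : ℕ → TopologicalSpace.NonemptyCompacts Z)
  (K₀ : TopologicalSpace.NonemptyCompacts Z), (∀ n, (K n : Set Z) ∈ P.Dom) →
  Tendsto K atTop (𝓝 K₀) → (K₀ : Set Z).Nontrivial → (K₀ : Set Z) ∈ P.Dom

/-- C8a: pigeonhole and coarea -/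
def StmtC8a : Prop := ∀ (G Z : Type) [Group G] [MetricSpace Z] [MulAction G Z] [CompactSpace Z]
  (H : HB G Z) (P : LimPot H) (F A B : Set Z) (c₁ c₂ : ℝ), IsClosed F → F ⊆ P.e '' RcI →
  IsClosed A → IsClosed B → Disjoint A B → c₁ < c₂ →
  (∀ᶠ k in (P.ω : Filter ℕ), ∀ c ∈ Ioo c₁ c₂, ∃ K : Set Z, IsCont K ∧ K ⊆ F ∧
    (∀ z ∈ K, P.uk k z = c) ∧ (K ∩ A).Nonempty ∧ (K ∩ B).Nonempty) →
  ∃ K ∈ P.Dom, K ⊆ F ∧ (K ∩ A).Nonempty ∧ (K ∩ B).Nonempty ∧ ∀ z ∈ K, P.u z ∈ Icc c₁ c₂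

/-- C8: leaves (Lemma 5) -/
def StmtC8 : Prop := ∀ (G Z : Type) [Group G] [MetricSpace Z] [MulAction G Z] [CompactSpace Z]
  (H : HB G Z) (P : LimPot H), ∃ T : Set ℝ, T.Countable ∧ ∀ y ∈ P.e '' RcI, P.u y ∉ T →
    ∃ K ∈ P.Dom, y ∈ K ∧ (K ∩ (P.e '' RcI)ᶜ).Nonempty ∧ ∀ z ∈ K, z ∈ P.e '' RcI → P.u z = P.u y

end Vale.Agent.P198
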