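import Vale.Agent.P198.Defs2

/-! # P198: statements of the counting blocks (TEAM D)
File for block `Dn`: `Vale/Agent/P198/Cnt/Dn.lean`, theorem name `Vale.Agent.P198.dn : StmtDn`. -/

namespace Vale.Agent.P198

open Set Filter Topology MeasureTheory

variable {G Z : Type} [Group G] [MetricSpace Z] [MulAction G Z]

/-- group-level data of the counting argument. `O g`, `Op g` = oscillation on the cell of `g` and on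
the big cell of `g`; `κ g` = weight decaying near the boundary of `U`; `W` = interior elements;
`Deep g` = far from the boundary of `U` compared with the size of the cell. -/
structure CD (H : HB G Z) where
  W : Set G
  Deep : Set G
  O : G → ℝ
  Op : G → ℝ
  κ : G → ℝ
  a : ℝ
  a_pos : 0 < a
  B : ℝ
  one_le_B : 1 ≤ B
  c₀ : ℕ
  m₀ : ℕ
  O_nonneg : ∀ g, 0 ≤ O g
  O_le : ∀ g, O g ≤ Op g
  Op_le : ∀ g, Op g ≤ 1
  κ_nonneg : ∀ g, 0 ≤ κ g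
  κ_le : ∀ g, κ g ≤ 1
  κ_pos : ∀ g ∈ W, 0 < κ g
  /-- the big cell is covered by descendants `c₀` levels below -/
  child : ∀ g ∈ W, ∃ F : Finset G, (∀ s ∈ F, H.len s ≤ m₀ ∧ H.len (g * s) = H.len g + c₀ ∧
    g * s ∈ W ∧ κ g ≤ B * κ (g * s)) ∧ Op g ≤ ∑ s ∈ F, O (g * s)
  /-- ancestors -/
  anc : ∀ g s, H.len (g * s) = H.len g + H.len s → g ∈ W → g * s ∈ W →
    O (g * s) ≤ Op g ∧ κ (g * s) ≤ B * κ g
  /-- deep elements: everything within word distance `m` is interior and has comparable `κ` -/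
  deep : ∀ m : ℕ, ∃ n₀ : ℕ, ∀ g ∈ Deep, n₀ ≤ H.len g → ∀ h, H.len (g⁻¹ * h) ≤ m →
    g ∈ W ∧ h ∈ W ∧ κ g ≤ B * κ h ∧ κ h ≤ B * κ g
  /-- the non-deep elements have finite total weight -/
  shallow : ∀ n : ℕ, ∑ j ∈ Finset.range n, ∑ g ∈ H.Sp j, (Wᶜ ∪ Deepᶜ).indicator (W.indicator κ) g ≤ B
  /-- bounded energy -/
  E2 : ∀ j, ∑ g ∈ H.Sp j, W.indicator (fun g => κ g * O g ^ 2) g ≤ B
  /-- exponential growth of the first moment -/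
  E1 : ∃ c > 0, ∃ j₀ : ℕ, ∀ j ≥ j₀, c * Real.exp (a * j) ≤ ∑ g ∈ H.Sp j, W.indicator (fun g => κ g * O g) g

namespace CD

variable {H : HB G Z} (c : CD H)

/-- `a_j(q)` -/
noncomputable def A (q : ℝ) (j : ℕ) : ℝ := ∑ g ∈ H.Sp j, c.W.indicator (fun g => c.κ g * c.O g ^ q) g

/-- `Λ(q) = t` -/
def Reg (q t : ℝ) : Prop :=
  (∀ l < t, ∀ B : ℝ, ∃ j, B < c.A q j * Real.exp (-l * j)) ∧
  (∀ l > t, ∃ B : ℝ, ∀ j, c.A q j ≤ B * Real.exp (l * j))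

/-- weight of `g` for parameters `q`, `l` -/
noncomputable def w (q l : ℝ) (g : G) : ℝ :=
  c.W.indicator (fun g => c.κ g * c.O g ^ q * Real.exp (-l * H.len g)) g

/-- mass of a set `X` at levels `≤ n` -/
noncomputable def mass (q l : ℝ) (n : ℕ) (X : Set G) : ℝ :=
  ∑ j ∈ Finset.range (n + 1), ∑ g ∈ H.Sp j, X.indicator (c.w q l) g

/-- `n` is a good cut-off: the total mass grows slowly after `n` -/
def Cut (q l ε : ℝ) (n : ℕ) : Prop :=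
  ∀ i : ℕ, c.mass q l (n + i) univ ≤ Real.exp (3 * ε * i) * c.mass q l n univ

end CD

/-- D2a: the exponent function takes all values of an interval `(t₁, a/2)` on `(1,2)` -/
def StmtD2a : Prop := ∀ (G Z : Type) [Group G] [MetricSpace Z] [MulAction G Z] (H : HB G Z)
  (c : CD H), ∃ t₁ > 0, t₁ < c.a / 2 ∧ ∀ t ∈ Ioo t₁ (c.a / 2), ∃ q ∈ Ioo (1 : ℝ) 2, c.Reg q t

/-- D2b: good cut-offs exist, and the mass is unbounded -/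
def StmtD2b : Prop := ∀ (G Z : Type) [Group G] [MetricSpace Z] [MulAction G Z] (H : HB G Z)
  (c : CD H) (q t ε : ℝ), 1 < q → q < 2 → c.Reg q t → 0 < ε → ε < t →
  (∀ B : ℝ, ∃ n, ∀ m ≥ n, B ≤ c.mass q (t - ε) m univ) ∧ ∀ n₀, ∃ n ≥ n₀, c.Cut q (t - ε) ε n

/-- D3a (p2): big cells much more oscillating than the cell have small mass.
The constant `B'` does not depend on `q`, `l`, `ε`. -/
def StmtD3a : Prop := ∀ (G Z : Type) [Group G] [MetricSpace Z] [MulAction G Z] (H : HB G Z)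
  (c : CD H), ∃ B' > 0, ∀ q l ε : ℝ, 1 < q → q < 2 → 0 < l → l ≤ c.a → 0 < ε → ε ≤ 1 →
  ∀ n, c.Cut q l ε n → ∀ K ≥ 1, c.mass q l n {g | K * c.O g < c.Op g} ≤ B' / K * c.mass q l n univ

/-- D3b (p3): suffix distribution -/
def StmtD3b : Prop := ∀ (G Z : Type) [Group G] [MetricSpace Z] [MulAction G Z] (H : HB G Z)
  (c : CD H), ∃ B' > 0, ∀ I : ℕ, ∃ BI : ℝ, ∀ q l ε : ℝ, 1 < q → q < 2 → 0 < l → l ≤ c.a →
  0 < ε → ε ≤ 1 → ∀ n, c.Cut q l ε n → ∀ s : G, H.len s = I →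
  c.mass q l n {g | g ∈ c.Deep ∧ ∃ g', g = g' * s ∧ H.len g = H.len g' + I} ≤
    B' * Real.exp (-l * I) * c.mass q l n univ + BI

/-- D3c (p4): expected number of descendants -/
def StmtD3c : Prop := ∀ (G Z : Type) [Group G] [MetricSpace Z] [MulAction G Z] (H : HB G Z)
  (c : CD H) (i₁ : ℝ), ∃ B' > 0, ∀ I : ℕ, ∃ BI : ℝ, ∀ q l ε : ℝ, 1 < q → q < 2 → 0 < l →
  l ≤ c.a → 0 < ε → ε ≤ 1 → ∀ n, c.Cut q l ε n →
  ∑ j ∈ Finset.range (n + 1), ∑ g ∈ H.Sp j, (c.Deep ∩ c.W).indicator (fun g => c.κ g * Real.exp (-l * H.len g) *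
    ∑ γ ∈ H.Sp I, {γ | gp H.len γ g⁻¹ ≤ i₁}.indicator (fun γ => c.Op (g * γ) ^ q) γ) g ≤
    B' * Real.exp ((l + 3 * ε) * I) * c.mass q l n univ + BI

/-- D4 (pairs): rich suffixes versus few bad cells -/
def StmtD4 : Prop := ∀ (G Z : Type) [Group G] [MetricSpace Z] [MulAction G Z] (H : HB G Z)
  (c : CD H) (α : Type) (Good : Set G) (cl : G → α) (t₁ t₂ φ : ℝ), 0 < t₁ → t₁ < t₂ → t₂ ≤ c.a →
  0 < φ → φ ≤ 1 → (cl '' Good).Finite →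
  (∀ t ∈ Ioo t₁ t₂, ∃ q ∈ Ioo (1 : ℝ) 2, c.Reg q t) →
  (∀ g ∈ Good, g ∈ c.Deep ∧ g ∈ c.W ∧ 0 < c.O g) →
  (∀ t ∈ Ioo t₁ t₂, ∀ q ∈ Ioo (1 : ℝ) 2, c.Reg q t → ∃ ε₁ > 0, ∀ ε, 0 < ε → ε < ε₁ →
    ∃ n₁, ∀ n ≥ n₁, c.Cut q (t - ε) ε n →
      c.mass q (t - ε) n Goodᶜ ≤ c.mass q (t - ε) n univ / 2) →
  ∃ i₁ : ℝ, ∀ I₀ : ℕ, ∃ I ≥ I₀, ∃ g₁ ∈ Good, ∃ g₀ s : G, g₁ = g₀ * s ∧ H.len s = I ∧
    H.len g₁ = H.len g₀ + I ∧ 8 * I ≤ H.len g₁ ∧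
    ∀ n₀ : ℕ, ∃ g₂ ∈ Good, n₀ ≤ H.len g₂ ∧ cl g₂ = cl g₁ ∧ gp H.len g₁⁻¹ g₂⁻¹ ≤ i₁ ∧
      c.Op (g₂ * s⁻¹) < φ * c.O g₂

/-! ## the geometric data attached to a potential -/

/-- a point in the cell of `g` -/
noncomputable def HB.ctr (H : HB G Z) (g : G) : Z := (H.exists_x g).choose

theorem HB.ctr_mem (H : HB G Z) (g : G) : H.ctr g ∈ H.cell g := (H.exists_x g).choose_spec

/-- levels attained strictly between two values of `u` on the cell of `g` -/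
def Pot.V {H : HB G Z} (P : Pot H) (g : G) : Set ℝ :=
  {v | ∃ x ∈ H.cell g, ∃ y ∈ H.cell g, P.u x < v ∧ v < P.u y}

/-- test cells of `g` at depth `I` -/
def HB.Tst (H : HB G Z) (C : ℝ) (I : ℕ) (g γ : G) : Prop :=
  H.len γ = I ∧ ∃ y ∈ H.cell γ, H.bp y g⁻¹ ≤ C

/-- bad test cells -/
def Pot.Bad {H : HB G Z} (P : Pot H) (φ : ℝ) (g γ : G) : Prop :=
  φ * osc P.u (H.cell g) ≤ osc (fun z => P.u (g • z)) (H.cell γ)

/-- wild elements: half of the levels of the cell are not attained on a good test cell -/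
def Pot.Wild {H : HB G Z} (P : Pot H) (C φ : ℝ) (I : ℕ) (g : G) : Prop :=
  ENNReal.ofReal (osc P.u (H.cell g) / 2) < volume {v | v ∈ P.V g ∧ ∀ γ, H.Tst C I g γ →
    ¬ P.Bad φ g γ → ∀ y ∈ H.cell γ, P.u (g • y) ≠ v}

open Classical in
/-- the class of `g`: test cells, bad or rounded normalised value -/
noncomputable def Pot.cl {H : HB G Z} (P : Pot H) (C φ : ℝ) (I : ℕ) (g : G) (γ : G) :
    Option (Option ℤ) :=
  if H.Tst C I g γ then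
    (if P.Bad φ g γ then some none
      else some (some ⌊(P.u (g • H.ctr γ) - P.u (H.ctr g)) / (φ * osc P.u (H.cell g))⌋))
  else none

/-- D1: the counting data of a potential, for all large constants `C₁` (big cells).
`W` is given by `L θ^|g| ≤ infDist (ctr g) Uᶜ` and `Deep` by `θ^(|g|/2) ≤ infDist (ctr g) Uᶜ`. -/
def StmtD1 : Prop := ∀ (G Z : Type) [Group G] [MetricSpace Z] [MulAction G Z] [CompactSpace Z]
  [ConnectedSpace Z] (H : HB G Z), H.LC → (∀ g : G, Continuous fun z : Z => g • z) →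
  ∀ (P : Pot H) (C₁ : ℝ), H.D ≤ C₁ → ∃ c : CD H,
    (∀ g ∈ c.W, c.O g = osc P.u (H.cell g) ∧ c.Op g = osc P.u (H.sh C₁ g)) ∧
    (∀ g, g ∈ c.Deep ↔ H.θ ^ ((H.len g : ℝ) / 2) ≤ Metric.infDist (H.ctr g) P.Uᶜ) ∧
    c.a = - Real.log H.θ ∧
    (∀ g ∈ c.W, H.sh C₁ g ⊆ P.U ∧ 0 < Metric.infDist (H.ctr g) P.Uᶜ)

/-- D3: wild elements have small mass -/
def StmtD3 : Prop := ∀ (G Z : Type) [Group G] [MetricSpace Z] [MulAction G Z] [CompactSpace Z]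
  [ConnectedSpace Z] (H : HB G Z), H.LC → (∀ g : G, Continuous fun z : Z => g • z) →
  ∀ (P : Pot H), ∃ C₄ C₁₀ : ℝ, H.D ≤ C₁₀ ∧ ∀ C₁ ≥ C₁₀, ∀ c : CD H,
    (∀ g ∈ c.W, c.O g = osc P.u (H.cell g) ∧ c.Op g = osc P.u (H.sh C₁ g)) →
    (∀ g, g ∈ c.Deep ↔ H.θ ^ ((H.len g : ℝ) / 2) ≤ Metric.infDist (H.ctr g) P.Uᶜ) →
    c.a = - Real.log H.θ →
    (∀ g ∈ c.W, H.sh C₁ g ⊆ P.U ∧ 0 < Metric.infDist (H.ctr g) P.Uᶜ) →
    ∀ φ, 0 < φ → φ ≤ 1 → ∃ (I : ℕ) (n₂ : ℕ), 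
    (∀ t, 0 < t → t < c.a / 2 → ∀ q ∈ Ioo (1 : ℝ) 2, c.Reg q t → ∃ ε₁ > 0, ∀ ε, 0 < ε → ε < ε₁ →
      ∃ n₁, ∀ n ≥ n₁, c.Cut q (t - ε) ε n →
        c.mass q (t - ε) n {g | g ∈ c.Deep ∧ n₂ ≤ H.len g ∧ P.Wild C₄ φ I g} ≤
          c.mass q (t - ε) n univ / 8) ∧
    /- on the good elements there are finitely many classes -/
    ∀ K : ℝ, (P.cl C₄ φ I '' {g | g ∈ c.Deep ∧ n₂ ≤ H.len g ∧ 0 < c.O g ∧ c.Op g ≤ K * c.O g}).Finite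

/-- D5: final contradiction -/
def StmtD5 : Prop := ∀ (G Z : Type) [Group G] [MetricSpace Z] [MulAction G Z] [CompactSpace Z]
  [ConnectedSpace Z] (H : HB G Z), H.LC → (∀ g : G, Continuous fun z : Z => g • z) →
  ∀ (P : Pot H) (C₄ : ℝ), ∃ C₁₀ : ℝ, ∀ C₁ ≥ C₁₀, ∀ c : CD H,
    (∀ g ∈ c.W, c.O g = osc P.u (H.cell g) ∧ c.Op g = osc P.u (H.sh C₁ g)) →
    (∀ g, g ∈ c.Deep ↔ H.θ ^ ((H.len g : ℝ) / 2) ≤ Metric.infDist (H.ctr g) P.Uᶜ) →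
    (∀ g ∈ c.W, H.sh C₁ g ⊆ P.U ∧ 0 < Metric.infDist (H.ctr g) P.Uᶜ) →
    ∀ (I₁ : ℕ), ∃ n₃ : ℕ, ∀ i₁ : ℝ, ∃ I₀ : ℕ, ∀ I ≥ I₀, ∀ g₁ g₀ s : G, g₁ ∈ c.Deep → 0 < c.O g₁ →
    n₃ ≤ H.len g₁ → ¬ P.Wild C₄ (1 / 20) I₁ g₁ → g₁ = g₀ * s → H.len s = I →
    H.len g₁ = H.len g₀ + I → 8 * I ≤ H.len g₁ →
    (∀ n₀ : ℕ, ∃ g₂ ∈ c.Deep, 0 < c.O g₂ ∧ n₀ ≤ H.len g₂ ∧ P.cl C₄ (1 / 20) I₁ g₂ = P.cl C₄ (1 / 20) I₁ g₁ ∧
      gp H.len g₁⁻¹ g₂⁻¹ ≤ i₁ ∧ c.Op (g₂ * s⁻¹) < 1 / 20 * c.O g₂) → False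

end Vale.Agent.P198
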